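import Vale.Agent.P247.Rot

namespace Vale.Agent.Results.P247.A_torusfib

open Vale.Agent.P247

theorem result (w : Fin 3 → E → M2) (h : Hyp w) (hn : Normalized w)
    (hf : ∃ (c : Fin 3 → ℝ) (f : E → ℝ), ∀ i x, w i x 2 3 = c i * f x) :
    ∃ W : ℝ → Fin 3 → E → M2, Deform w W ∧ HK (W 1) :=
  Vale.Agent.P247.final h hn hf

end Vale.Agent.Results.P247.A_torusfib
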